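import Crest.Agent.X212.Ind26.Hb

-- ▼ part X212/Ind26/Brg
section

/-!
# X212 / Ind26 (helper26): competitors with bad regions; a planar inequality
-/

set_option autoImplicit false
set_option linter.unusedSectionVars false

open Finset Classical

noncomputable section

namespace Crest.Agent.X212.Ind26

open Hp13 Cut21
open Alg36 (Om Op Esc Fb Clo)

section
variable {P : Type} [PartialOrder P] [Fintype P] {A : Set P} {z : P → P → ℤ}

theorem cnt_ne {T : Set (Lv A z)} {x y : P} (h : x ≤ y) (k : cnt T x y ≠ 0) :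
    ∃ q ∈ T, q.1.1 = Ch.pr x y h := by
  have := cnt_nonneg (T := T) x y
  rw [cnt, dif_pos h] at k this
  obtain ⟨_, -, -, ⟨q, h1, h2, -⟩, -⟩ := exists_nlev (T := T) (Ch.pr x y h) le_rfl
    (lt_of_le_of_ne this k.symm)
  exact ⟨q, h1, h2⟩

theorem cnt_pos [IsCoc A z] {T : Set (Lv A z)} (h : Sat T) (hm : Mono A z) {q : Lv A z}
    (hq : q ∈ T) : 0 < cnt T q.1.1.bot q.1.1.top := by
  rw [h.cnt_bt hm q.2.1]
  exact (nlev_nonneg _ _ _).trans_lt (nlev_lt _ q.2.2.1 q.2.2.2 (lev_self.2 hq))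

/-- joined on one side of `V` -/
def Sd (A V : Set P) : P → P → Prop :=
  Relation.ReflTransGen fun x y => x ∈ A ∧ y ∈ A ∧ Cm x y ∧ (x ∈ V ↔ y ∈ V)

theorem Sd.symm {V : Set P} {x y : P} (h : Sd A V x y) : Sd A V y x := by
  induction h with
  | refl => exact .refl
  | tail _ k ih => exact .head ⟨k.2.1, k.1, k.2.2.1.symm, k.2.2.2.symm⟩ ih

theorem sd_in {V : Set P} (hV : V ⊆ A) {x y : P} (h : Rch V x y) : Sd A V x y := by
  induction h with
  | refl => exact .refl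
  | tail _ k ih => exact ih.tail ⟨hV k.1, hV k.2.1, k.2.2, iff_of_true k.1 k.2.1⟩

theorem sd_out {V : Set P} {x y : P} (h : Rch (A \ V) x y) : Sd A V x y := by
  induction h with
  | refl => exact .refl
  | tail _ k ih => exact ih.tail ⟨k.1.1, k.2.1.1, k.2.2, iff_of_false k.1.2 k.2.1.2⟩

theorem Sd.eq {V : Set P} {g : P → ℤ}
    (hg : ∀ x ∈ A, ∀ y ∈ A, x ≤ y → (x ∈ V ↔ y ∈ V) → g x = g y) {x y : P} (h : Sd A V x y) :
    g x = g y := by
  induction h with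
  | refl => rfl
  | tail _ k ih =>
    exact ih.trans (k.2.2.1.elim (fun l => hg _ k.1 _ k.2.1 l k.2.2.2)
      fun l => (hg _ k.2.1 _ k.1 l k.2.2.2.symm).symm)

end

/-- **competitors with bad regions**: every region that does not reach the boundary costs one -/
theorem brg {s : St} (h : Inv s) {V : Set s.P} (hV : V ⊆ s.A)
    (up : ∀ x ∈ V, ∀ y ∈ s.A, x ≤ y → y ∈ V) {ι : Type} (J : Finset ι) (T : ι → Set s.P)
    (hT : ∀ i ∈ J, ∀ a ∈ T i, a ∈ s.A ∧ ∀ b ∈ T i, Sd s.A V a b)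
    (R1 : ∀ a ∈ V, ∃ b, Rch V a b ∧ ((∃ o, o ∉ s.A ∧ b ≤ o) ∨ ∃ i ∈ J, b ∈ T i))
    (R0 : ∀ a ∈ s.A \ V, ∃ b, Rch (s.A \ V) a b ∧ ((∃ o, o ∉ s.A ∧ o ≤ b) ∨ ∃ i ∈ J, b ∈ T i)) :
    0 ≤ ee V + J.card := by
  set U := Op s.A ∪ V with hU0
  have e3 : cb (ind U) = Rp s.A + cb (ind V) := by
    rw [Rp_eq, ← cb_add]
    congr 1
    funext x
    by_cases h1 : x ∈ V
    · have : x ∉ Op s.A := fun k => k.1 (hV h1)
      simp [ind, h1, this, U]
    · simp [ind, h1, U]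
  have hU : ∀ x y, Dp s.A x y → x ∈ U → y ∈ U := fun x y hp k => by
    rcases k with k | k
    · exact Or.inl (op_up h.conv k hp.1)
    · by_cases hy : y ∈ s.A
      exacts [Or.inr (up x k y hy hp.1), Or.inl ⟨hy, x, hV k, hp.1⟩]
  have uv : ∀ x ∈ s.A, x ∈ U ↔ x ∈ V := fun x hx =>
    ⟨fun k => k.resolve_left fun j => j.1 hx, Or.inr⟩
  have hm : Mono s.A (cb (ind U)) := mono_ind hU
  have : IsCoc s.A (cb (ind U)) := ⟨coc_cb _⟩
  obtain ⟨d1, d2, d3, -⟩ := drop h.bnd hm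
  have k1 := h.maxp s id Desc.refl _ d1
    ((e3 ▸ eqv_add_cb fun x hx => ind_of_not fun k => hx (hV k) :
      Eqv s.A (Rp s.A) (cb (ind U))).trans d2)
  have k2 : chi s.A (cb (ind U)) = chi s.A (Rp s.A) - 2 * ee V := by
    rw [e3, chi_add, chi_cb_ind h.mf hV]; ring
  set S := (univ.filter (· ∈ Cls s.A (cb (ind U)))).image (Hp13.cmp (LA s.A (cb (ind U))))
  have hS : ∀ C ∈ S, IsCmp (LA s.A (cb (ind U))) C ∧ ¬ Tch s.A _ C := fun C hC => by
    obtain ⟨p, hp, rfl⟩ := mem_image.1 hC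
    exact ⟨isCmp_cmp (mem_filter.1 hp).2.1, (mem_filter.1 hp).2.2⟩
  have k3 : chiC (Cls s.A (cb (ind U))) ≤ 2 * S.card := by
    rw [chiC_eq_sum (T := LA s.A (cb (ind U))) (fun _ k => k.1)
      fun p hp q hq k => Cls.clopen hp (Rch.of_cm hp.1 hq k)]
    refine (sum_le_card_nsmul _ _ 2 fun C hC => cmp_le_two h.mf hm (hS C hC).1).trans ?_
    rw [nsmul_eq_mul, mul_comm]
  suffices S.card ≤ J.card by omega
  have fl : ∀ {C : Set (Lv s.A (cb (ind U)))} {g : s.P → ℤ}, EqD s.A (cnt C) (cb g) → ∀ x y,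
      Dp s.A x y → (x ∈ U ↔ y ∈ U) → g x = g y := fun {C g} hg x y hp e => by
    have a1 := cnt_le (T := C) hm hp
    have a2 := cnt_nonneg (T := C) x y
    rw [cb_ind_zero e] at a1
    have a3 : cnt C x y = g y - g x := hg x y hp
    omega
  have fs : ∀ {C : Set (Lv s.A (cb (ind U)))} {g : s.P → ℤ}, EqD s.A (cnt C) (cb g) → ∀ {x y},
      Sd s.A V x y → g x = g y := fun hg _ _ r => r.eq fun x hx y hy l e =>
    fl hg x y (Dp.of_left hx l) ((uv x hx).trans (e.trans (uv y hy).symm))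
  refine card_le_card_of_forall_subsingleton (fun C i => ∃ g : s.P → ℤ, (∀ x, x ∉ s.A → g x = 0) ∧
    EqD s.A (cnt C) (cb g) ∧ ∃ b ∈ T i, g b ≠ 0 ∧ ∀ q ∈ C, Sd s.A V b q.1.1.bot ∨
      Sd s.A V b q.1.1.top) (fun C hC => ?_) fun i hi C₁ h1 C₂ h2 => ?_
  · obtain ⟨c1, c2⟩ := hS C hC
    have sat := sat_closed c1.sub (fun p hp q hq k => c1.clopen hp hq k) c2
    obtain ⟨g, g0, hg⟩ := h.bnd _ (sat.coc hm) (cl0_cnt c1.sub)
    rw [zero_add] at hg
    obtain ⟨p, hp⟩ := c1.ne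
    have p1 : 0 < g p.1.1.top - g p.1.1.bot := (cnt_pos sat hm hp).trans_eq (hg _ _ p.2.1.bt)
    have inA : ∀ x, g x ≠ 0 → x ∈ s.A := fun x k => by_contra fun j => k (g0 x j)
    by_cases hb : g p.1.1.bot = 0
    · have e : ∀ q ∈ C, ∀ r ∈ C, q ≤ r → g q.1.1.top = g r.1.1.top := fun q _ r _ l =>
        fl hg _ _ (r.2.1.dp (Lv.ch_le l q.1.1.top_mem) r.1.1.top_mem (Ch.top_mono (Lv.ch_le l)))
          (iff_of_true (lv_pos q).2 (lv_pos r).2)
      have m : ∀ q ∈ C, q.1.1.top ∈ V := fun q hq => (uv _ (inA _ (by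
        rw [← (c1.conn p hp q hq).eq (g := fun q => g q.1.1.top) e]; omega))).1 (lv_pos q).2
      obtain ⟨b, r, k⟩ := R1 _ (m p hp)
      have gb : g b ≠ 0 := by rw [← fs hg (sd_in hV r)]; omega
      rcases k with ⟨o, o1, o2⟩ | ⟨i, hi, k⟩
      · have hb := r.mem (m p hp)
        exact absurd ((fl hg b o (Dp.of_left (hV hb) o2) (iff_of_true (Or.inr hb)
          (Or.inl ⟨o1, b, hV hb, o2⟩))).trans (g0 o o1)) gb
      · exact ⟨i, hi, g, g0, hg, b, k, gb, fun q hq => Or.inr (sd_in hV (r.symm.trans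
          ((c1.conn p hp q hq).map (f := fun q => q.1.1.top) fun q hq r hr l =>
            Rch.of_cm (m q hq) (m r hr) (Or.inl (Ch.top_mono (Lv.ch_le l))))))⟩
    · have e : ∀ q ∈ C, ∀ r ∈ C, q ≤ r → g q.1.1.bot = g r.1.1.bot := fun q _ r _ l =>
        (fl hg _ _ (r.2.1.dp r.1.1.bot_mem (Lv.ch_le l q.1.1.bot_mem) (Ch.bot_anti (Lv.ch_le l)))
          (iff_of_false (lv_pos r).1 (lv_pos q).1)).symm
      have m : ∀ q ∈ C, q.1.1.bot ∈ s.A \ V := fun q hq => ⟨inA _ (by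
        rw [← (c1.conn p hp q hq).eq (g := fun q => g q.1.1.bot) e]; exact hb),
        fun k => (lv_pos q).1 (Or.inr k)⟩
      obtain ⟨b, r, k⟩ := R0 _ (m p hp)
      have gb : g b ≠ 0 := by rw [← fs hg (sd_out r)]; exact hb
      rcases k with ⟨o, o1, o2⟩ | ⟨i, hi, k⟩
      · have hb := r.mem (m p hp)
        exact absurd ((fl hg o b (Dp.of_right hb.1 o2) (iff_of_false
          (fun k => k.elim (Alg36.om_op h.conv ⟨o1, b, hb.1, o2⟩) fun k => o1 (hV k))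
          fun k => hb.2 ((uv b hb.1).1 k))).symm.trans (g0 o o1)) gb
      · exact ⟨i, hi, g, g0, hg, b, k, gb, fun q hq => Or.inl (sd_out (r.symm.trans
          ((c1.conn p hp q hq).map (f := fun q => q.1.1.bot) fun q hq r hr l =>
            Rch.of_cm (m q hq) (m r hr) (Or.inr (Ch.bot_anti (Lv.ch_le l))))))⟩
  · obtain ⟨s1, g₁, a0, a1, b₁, a2, a3, a4⟩ := h1
    obtain ⟨s2, g₂, c0, c1, b₂, c2, c3, c4⟩ := h2
    by_contra hne
    have bb := (hT i hi b₁ a2).2 b₂ c2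
    have key : ∀ {C₁ C₂ : Set (Lv s.A (cb (ind U)))} {g₂ : s.P → ℤ} {b b' : s.P} {x y : s.P},
        C₁ ∈ S → C₂ ∈ S → C₁ ≠ C₂ → EqD s.A (cnt C₂) (cb g₂) → Sd s.A V b b' →
        (∀ q ∈ C₁, Sd s.A V b q.1.1.bot ∨ Sd s.A V b q.1.1.top) → Dp s.A x y →
        cnt C₁ x y ≠ 0 → g₂ x = g₂ b' ∧ g₂ y = g₂ b' := by
      intro C₁ C₂ g₂ b b' x y s1 s2 hne c1 bb a4 hp hn
      obtain ⟨q, q1, q2⟩ := cnt_ne hp.1 hn
      have e : g₂ y - g₂ x = 0 := by
        refine (c1 x y hp).symm.trans (by_contra fun k => hne ?_)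
        obtain ⟨r, r1, r2⟩ := cnt_ne hp.1 k
        obtain rfl : q = r := Lv.ext (q2.trans r2.symm) ((lv_zero q).trans (lv_zero r).symm)
        rw [(hS _ s1).1.eq q1, (hS _ s2).1.eq r1]
      have := fs c1 bb
      rcases a4 q q1 with k | k <;> have := fs c1 k <;> rw [q2] at this <;>
        simp only [Ch.bot_pr, Ch.top_pr] at this <;> omega
    have st : ∀ x y, Dp s.A x y → ((g₁ x = g₁ b₁ ∨ g₂ x = g₂ b₂) ↔
        (g₁ y = g₁ b₁ ∨ g₂ y = g₂ b₂)) := fun x y hp => by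
      by_cases n1 : cnt C₁ x y = 0
      · by_cases n2 : cnt C₂ x y = 0
        · have e1 : cnt C₁ x y = g₁ y - g₁ x := a1 x y hp
          have e2 : cnt C₂ x y = g₂ y - g₂ x := c1 x y hp
          omega
        · have := key s2 s1 (Ne.symm hne) a1 bb.symm c4 hp n2
          exact iff_of_true (Or.inl this.1) (Or.inl this.2)
      · have := key s1 s2 hne c1 bb a4 hp n1
        exact iff_of_true (Or.inr this.1) (Or.inr this.2)
    obtain ⟨c, hc, r, o, ho, k⟩ := h.esc b₁ (hT i hi b₁ a2).1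
    have pc := r.ind (p := fun x => g₁ x = g₁ b₁ ∨ g₂ x = g₂ b₂) (Or.inl rfl)
      fun x hx y _ l => st x y (Dp.of_left hx l)
    have po := k.elim (fun l => (st _ _ (Dp.of_left hc l)).1 pc)
      fun l => (st _ _ (Dp.of_right hc l)).2 pc
    rw [a0 o ho, c0 o ho] at po
    omega

section planar

variable {P : Type} [PartialOrder P] [Fintype P] {B G H : Set P}

open Sf30 in
/-- a connected part `G` of a surface with boundary loses one for every inner region -/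
theorem planar (hB : Mf 2 B) (h : Col B G H) (hc : Conn B) (hm : ∃ b ∈ B, ∃ x, x ∉ B ∧ Cm b x)
    (hG : Conn G) (hn : G.Nonempty) :
    eu G + ((cs H).filter (Inn B)).card ≤ 1 := by
  let β : Ch P → Option (Set P) := fun c =>
    if k : ∃ Y, IsCmp H Y ∧ Inn B Y ∧ Mt Y c then some k.choose else none
  have β1 : ∀ c Y, IsCmp H Y → Inn B Y → Mt Y c → β c = some Y := fun c Y h1 h2 h3 => by
    have k : ∃ Y, IsCmp H Y ∧ Inn B Y ∧ Mt Y c := ⟨Y, h1, h2, h3⟩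
    simp only [β, dif_pos k]
    rw [cmp_uniq k.choose_spec.1 h1 k.choose_spec.2.2 h3]
  have := eu_add_le (hB.mono h.l) hG β (fun c hc e l => ?_)
    (insert none (((cs H).filter (Inn B)).image some)) fun i hi => ?_
  · rw [card_insert_of_notMem (by simp), card_image_of_injective _ (Option.some_injective _)]
      at this
    push_cast at this
    omega
  · by_cases k : ∃ Y, IsCmp H Y ∧ Inn B Y ∧ Mt Y e
    · obtain ⟨Y, h1, h2, y, h3, h4⟩ := k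
      obtain ⟨x, x1, x2⟩ := hc.2
      have := h1.clopen h4 ((h.cases (h2 y h4 x (e.cm h3 (l x1)))).resolve_left x2) (e.cm h3 (l x1))
      rw [β1 c Y h1 h2 ⟨x, x1, this⟩, β1 e Y h1 h2 ⟨y, h3, h4⟩]
    · simp only [β]
      rw [dif_neg k, dif_neg fun ⟨Y, h1, h2, h3⟩ => k ⟨Y, h1, h2, h3.mono l⟩]
  · rcases mem_insert.1 hi with rfl | hi
    · obtain ⟨b, hb, x, hx, k⟩ := hm
      rcases h.cases hb with j | j
      · refine ⟨Alg36.pr k, Alg36.pr_mix j (fun i => hx (h.l i)) k, dif_neg ?_⟩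
        rintro ⟨Y, h1, -, y, h3, h4⟩
        rcases (Alg36.mem_pr k).1 h3 with rfl | rfl
        exacts [h.not j (h1.sub h4), hx (h.r (h1.sub h4))]
      · obtain ⟨c, c1, c2⟩ := cmp_if h.symm hc hn (isCmp_cmp j)
        refine ⟨c, ⟨c1.2, let ⟨y, y1, y2⟩ := c1.1; ⟨y, y1, h.symm.not y2⟩⟩, dif_neg ?_⟩
        rintro ⟨Y, h1, h2, h3⟩
        exact hx (h2 b (cmp_uniq (isCmp_cmp j) h1 c2 h3 ▸ mem_cmp_self j) x k)
    · obtain ⟨Y, hY, rfl⟩ := mem_image.1 hi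
      obtain ⟨h1, h2⟩ := mem_filter.1 hY
      obtain ⟨c, c1, c2⟩ := cmp_if h.symm hc hn (mem_cs.1 h1)
      exact ⟨c, ⟨c1.2, let ⟨y, y1, y2⟩ := c1.1; ⟨y, y1, h.symm.not y2⟩⟩,
        β1 c Y (mem_cs.1 h1) h2 c2⟩

end planar

end Crest.Agent.X212.Ind26
end
end

-- ▼ part X212/Ind26/Glue
section

/-!
# X212 / Ind26 (helper26): a competitor of the cut manifold is glued back along the discs
-/

set_option autoImplicit false
set_option linter.unusedSectionVars false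

open Finset Classical

noncomputable section

namespace Crest.Agent.X212.Ind26

open Hp13 Cut21
open Alg36 (Om Op Esc Fb Clo iIn iMt)

section
variable {P : Type} [PartialOrder P] [Fintype P] {A G S : Set P} {z : P → P → ℤ}

theorem sum_int {c d : Ch P} (h : c ≤ d) :
    ∑ C ∈ univ.filter (fun C : Ch (Ch P) => C.bot = c ∧ C.top = d), C.sg = -(c.sg * d.sg) := by
  have h1 := sum_through c (fun _ => 1) (fun C => if C.top = d then 1 else 0)
    (fun C => if C.top = d then 1 else 0) fun C C₁ C₂ e1 e2 e => by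
      have : C.top = C₂.top := Ch.top_eq (e ▸ mem_union_right _ C₂.top_mem) fun x hx => by
        rcases mem_union.1 (e ▸ hx) with k | k
        exacts [(Ch.le_top k).trans (e1.trans e2.symm ▸ C₂.bot_le_top), Ch.le_top k]
      rw [this, one_mul]
  have h2 := Alg36.Ft_eq (Ch.pt c) (T := d) (by simpa using h)
  have h3 := eps_ch c
  have h4 := c.sg_sq
  simp only [mul_ite, mul_one, mul_zero, ← sum_filter, filter_filter] at h1
  simp only [Alg36.Ft, Ch.pt_le] at h2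
  rw [eps, neg_inj] at h3
  rw [h2, h3] at h1
  linear_combination c.sg * h1 - (∑ C ∈ univ.filter
    (fun C : Ch (Ch P) => C.bot = c ∧ C.top = d), C.sg) * h4

theorem sum_bt (F : Ch P → Ch P → ℤ) : ∑ C : Ch (Ch P), C.sg * F C.bot C.top =
    -∑ d : Ch P, d.sg * ∑ c ∈ univ.filter (· ≤ d), c.sg * F c d := by
  rw [← sum_fiberwise_of_maps_to (s := univ) (t := univ) (g := Ch.top) fun _ _ => mem_univ _,
    ← sum_neg_distrib]
  refine sum_congr rfl fun d _ => ?_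
  rw [← sum_fiberwise_of_maps_to (s := univ.filter fun C : Ch (Ch P) => C.top = d)
    (t := univ.filter (· ≤ d)) (g := Ch.bot) fun C hC =>
    mem_filter.2 ⟨mem_univ _, (mem_filter.1 hC).2 ▸ C.bot_le_top⟩, mul_sum, ← sum_neg_distrib]
  refine sum_congr rfl fun c hc => ?_
  rw [filter_filter, sum_congr rfl (g := fun C => C.sg * F c d) fun C hC => by
    rw [(mem_filter.1 hC).2.1, (mem_filter.1 hC).2.2], ← sum_mul]
  simp only [and_comm (a := Ch.top _ = d)]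
  rw [sum_int (mem_filter.1 hc).2]
  ring

/-- the cells with top in `A` -/
def Yc (A : Set P) (z : P → P → ℤ) : Set (Lv A z) := {p | p.1.1.top ∈ A}

@[simp] theorem mem_yc {p : Lv A z} : p ∈ Yc A z ↔ p.1.1.top ∈ A := Iff.rfl

theorem yc_la {p : Lv A z} (h : p ∈ Yc A z) : p ∈ LA A z := ⟨_, p.1.1.top_mem, h⟩

/-- the glued region -/
def Vg (A : Set P) (z : P → P → ℤ) (G : Set P) : Set (Ch (Ch P)) :=
  {C | C.top.top ∈ A ∧ z C.bot.bot C.bot.top = 0 ∧ (0 < z C.bot.top C.top.top ∨ C.top.top ∈ G)}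

/-- flat flags over `S` -/
def Fl (z : P → P → ℤ) (S : Set P) : Set (Ch (Ch P)) :=
  {C | C.top.top ∈ S ∧ ∀ x ∈ C.bot.1, z x C.top.top = 0}

/-- joined in the cut manifold -/
def Rz (z : P → P → ℤ) (S : Set P) : P → P → Prop :=
  Relation.ReflTransGen fun x y => x ∈ S ∧ y ∈ S ∧ Z0 z x y

variable [hz : IsCoc A z] (hm : Mono A z) (hj : JK A z)

theorem add3 {a x y : P} (ha : a ∈ A) (h1 : x ≤ y) (h2 : y ≤ a) : z x a = z x y + z y a :=
  (tri3 ha h1 h2).add hz.coc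

include hm hj in
theorem flat_iff {c : Ch P} {a : P} (ha : a ∈ A) (h : c.top ≤ a) :
    ((z c.bot c.top = 0 ∧ 0 < z c.top a) ↔ ∀ x ∈ c.1, 0 < z x a) ∧
      ((z c.bot c.top = 0 ∧ ¬ 0 < z c.top a) ↔ ∀ x ∈ c.1, z x a = 0) := by
  have k : ∀ x ∈ c.1, z x a = z x c.top + z c.top a ∧ 0 ≤ z x c.top ∧ z x c.top ≤ z c.bot c.top ∧
      z x a ≤ 1 := fun x hx =>
    ⟨add3 ha (Ch.le_top hx) h, hm _ _ (dp_hi ha (Ch.le_top hx) h), hm.le_range hz.coc
      ⟨a, ha, fun y hy => Or.inr ((Ch.le_top hy).trans h)⟩ hx c.top_mem (Ch.le_top hx),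
      hj _ _ (Or.inl ha) ((Ch.le_top hx).trans h)⟩
  have k1 := k _ c.bot_mem
  have k2 := hm _ _ (Dp.of_right ha h)
  refine ⟨⟨fun j x hx => ?_, fun j => ?_⟩, fun j x hx => ?_, fun j => ?_⟩
  · have := k x hx; omega
  · have := j _ c.top_mem; omega
  · have := k x hx; omega
  · have := j _ c.top_mem; have := j _ c.bot_mem; omega

include hm hj in
theorem ee_Vg (hG : G ⊆ A) : ee (Vg A z G) = ee G - chiC (Yc A z) := by
  have h1 := sum_bt (P := P) fun c d => if d.top ∈ A ∧ z c.bot c.top = 0 ∧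
    (0 < z c.top d.top ∨ d.top ∈ G) then 1 else 0
  have h2 := Sf30.sum_lv hm fun c => c.sg * ind A c.top
  have h3 := sum_top (ind G)
  have e1 : chiC (Yc A z) = ∑ p ∈ univ.filter (· ∈ LA A z), p.1.1.sg * ind A p.1.1.top := by
    rw [chiC, sum_filter, sum_filter]
    refine sum_congr rfl fun p _ => ?_
    by_cases k : p ∈ Yc A z
    · rw [if_pos k, if_pos (yc_la k), ind_of_mem (mem_yc.1 k), mul_one]
    · rw [if_neg k, ind_of_not (mt mem_yc.2 k), mul_zero, ite_self]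
  rw [sum_eps_ind] at h3
  rw [ee_ch, e1, h2, sum_filter, sum_filter, ← neg_neg (ee G), ← h3]
  simp only [mul_ite, mul_one, mul_zero] at h1
  rw [sum_congr rfl (g := fun x : Ch (Ch P) => if x.top.top ∈ A ∧ z x.bot.bot x.bot.top = 0 ∧
    (0 < z x.bot.top x.top.top ∨ x.top.top ∈ G) then x.sg else 0) fun _ _ => by congr, h1,
    neg_neg, ← sum_neg_distrib, ← sum_sub_distrib]
  refine sum_congr rfl fun d _ => ?_
  by_cases hd : d.top ∈ A
  swap
  · simp [hd, ind_of_not hd, ind_of_not fun k => hd (hG k)]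
  have k1 := Alg36.sum_iIn d {x | 0 < z x d.top}
  have k2 := Alg36.sum_iIn d {x | z x d.top = 0}
  have k3 : iMt {x | 0 < z x d.top} d = z d.bot d.top := by
    have := hm _ _ (Dp.of_right hd d.bot_le_top)
    have := hj _ _ (Or.inl hd) d.bot_le_top
    by_cases k : 0 < z d.bot d.top
    · rw [Alg36.iMt_of ⟨_, d.bot_mem, k⟩]; omega
    · rw [Alg36.iMt_not (S := {x | 0 < z x d.top}) fun ⟨x, hx, j⟩ => k (lt_of_lt_of_le j
        (hm.le_range hz.coc (Mt.dom ⟨_, d.top_mem, hd⟩) hx d.top_mem (Ch.le_top hx)))]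
      omega
  rw [Alg36.iMt_of ⟨_, d.top_mem, self0 hz.coc hd⟩] at k2
  rw [if_pos ⟨_, d.top_mem, hd⟩, ind_of_mem hd, sum_congr rfl (g := fun c =>
    c.sg * iIn {x | 0 < z x d.top} c + c.sg * iIn {x | z x d.top = 0} c * ind G d.top)
    fun c hc => ?_, sum_add_distrib, ← sum_mul, k1, k2, k3]
  · ring
  · have := flat_iff hm hj hd (Ch.top_mono (mem_filter.1 hc).2)
    simp only [iIn, Set.mem_ofPred_eq, ← this.1, ← this.2, hd, ind]
    by_cases a : z c.bot c.top = 0 <;> by_cases b : 0 < z c.top d.top <;>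
      by_cases e : d.top ∈ G <;> simp [a, b, e]

include hm in
theorem up_Vg (up : ∀ x ∈ G, ∀ y ∈ A, x ≤ y → z x y = 0 → y ∈ G) {C D : Ch (Ch P)}
    (hC : C ∈ Vg A z G) (hD : D.top.top ∈ A) (h : C ≤ D) : D ∈ Vg A z G := by
  have l1 : D.bot ≤ C.bot := Ch.bot_anti h
  have l2 : C.bot.top ≤ C.top.top := Ch.top_mono C.bot_le_top
  have l3 : C.top.top ≤ D.top.top := Ch.top_mono (Ch.top_mono h)
  have l4 := Ch.top_mono l1
  have a1 := hm.le_range hz.coc (c := C.bot) ⟨_, hC.1, fun y hy => Or.inr ((Ch.le_top hy).trans l2)⟩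
    (l1 D.bot.bot_mem) (l1 D.bot.top_mem) D.bot.bot_le_top
  have a2 := hm _ _ (dp_hi hC.1 D.bot.bot_le_top (l4.trans l2))
  have a3 := add3 (z := z) hD l4 (l2.trans l3)
  have a4 := add3 (z := z) hD l2 l3
  have a5 := hm _ _ (dp_hi hC.1 l4 l2)
  have a6 := hm _ _ (Dp.of_right hC.1 l2)
  have a7 := hm _ _ (Dp.of_right hD l3)
  have a8 := hC.2.1
  refine ⟨hD, by omega, or_iff_not_imp_left.2 fun k => up _ (hC.2.2.resolve_left (by omega)) _ hD l3
    (by omega)⟩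

include hm hj in
theorem mem_Vg {C : Ch (Ch P)} (h : C.top.top ∈ A) (k : ∀ x ∈ C.bot.1, 0 < z x C.top.top) :
    C ∈ Vg A z G :=
  have := (flat_iff hm hj h (Ch.top_mono C.bot_le_top)).1.2 k
  ⟨h, this.1, Or.inl this.2⟩

include hm hj in
theorem fl_in (hG : G ⊆ A) : Fl z G ⊆ Vg A z G := fun C h =>
  ⟨hG h.1, ((flat_iff hm hj (hG h.1) (Ch.top_mono C.bot_le_top)).2.2 h.2).1, Or.inr h.1⟩

include hm hj in
theorem fl_out : Fl z (A \ G) ⊆ A2 A \ Vg A z G := fun C h =>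
  ⟨h.1.1, fun k => k.2.2.elim ((flat_iff hm hj h.1.1 (Ch.top_mono C.bot_le_top)).2.2 h.2).2 h.1.2⟩

theorem fl_pt (hS : S ⊆ A) {a : P} (ha : a ∈ S) : Ch.pt (Ch.pt a) ∈ Fl z S :=
  ⟨by simpa using ha, by simpa using self0 hz.coc (hS ha)⟩

theorem fl_rch (hS : S ⊆ A) {C : Ch (Ch P)} (h : C ∈ Fl z S) :
    Rch (Fl z S) C (Ch.pt (Ch.pt C.top.top)) := by
  have l : C.bot.top ≤ C.top.top := Ch.top_mono C.bot_le_top
  have l1 := le_tp C.bot _ l
  have l2 := tp_le (h := l) C.bot_le_top C.top.top_mem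
  have s0 := self0 hz.coc (hS h.1)
  have m1 : Ch.pr _ _ C.bot_le_top ∈ Fl z S := by simpa [Fl] using h
  have m2 : tri _ _ _ l1 l2 ∈ Fl z S := by simpa [Fl] using h
  have m3 : Ch.pt (tp C.bot _ l) ∈ Fl z S := by simpa [Fl, s0] using h
  have m4 : Ch.pr _ _ (pt_le_tp C.bot _ l) ∈ Fl z S := by simpa [Fl, s0] using h.1
  exact (((Rch.of_cm h m1 (Or.inr (pr_le C.bot_mem C.top_mem))).trans
    (Rch.of_cm m1 m2 (Or.inl (pr_le (by simp) (by simp))))).trans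
    (Rch.of_cm m2 m3 (Or.inr (Ch.pt_le.2 (by simp))))).trans
    ((Rch.of_cm m3 m4 (Or.inl (Ch.pt_le.2 (by simp)))).trans
      (Rch.of_cm m4 (fl_pt hS h.1) (Or.inr (Ch.pt_le.2 (by simp)))))

theorem fl_rz (hS : S ⊆ A) {a b : P} (h : Rz z S a b) :
    Rch (Fl z S) (Ch.pt (Ch.pt a)) (Ch.pt (Ch.pt b)) := by
  have k : ∀ x ∈ S, ∀ y ∈ S, x ≤ y → z x y = 0 →
      Rch (Fl z S) (Ch.pt (Ch.pt x)) (Ch.pt (Ch.pt y)) := fun x hx y hy l e => by
    have m : Ch.pr (Ch.pt x) (Ch.pr x y l) (Ch.pt_le.2 (by simp)) ∈ Fl z S := by simp [Fl, hy, e]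
    simpa using (Rch.of_cm (fl_pt hS hx) m (Or.inl (Ch.pt_le.2 (by simp)))).trans (fl_rch hS m)
  induction h with
  | refl => exact Rch.rfl
  | tail _ j ih =>
    exact ih.trans (j.2.2.elim (fun i => k _ j.1 _ j.2.1 i.1 i.2)
      fun i => (k _ j.2.1 _ j.1 i.1 i.2).symm)

/-- the flag of a cell in the lower layer -/
def wm (p : Lv A z) : Ch (Ch P) := Ch.pt p.1.1

/-- the flag of a cell in the upper layer -/
def wp (p : Lv A z) : Ch (Ch P) := Ch.pr (Ch.pt p.1.1.bot) p.1.1 (Ch.pt_le.2 p.1.1.bot_mem)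

theorem lv_pos' (p : Lv A z) : 0 < z p.1.1.bot p.1.1.top := p.2.2.1.trans_lt p.2.2.2

theorem mem_out {C : Ch (Ch P)} (h : C.top.top ∈ A) (k : 0 < z C.bot.bot C.bot.top) :
    C ∈ A2 A \ Vg A z G := ⟨h, fun j => k.ne' j.2.1⟩

theorem wm_mem {p : Lv A z} (h : p ∈ Yc A z) : wm p ∈ A2 A \ Vg A z G :=
  mem_out (by simpa [wm] using h) (by simpa [wm] using lv_pos' p)

theorem wm_rch {Y : Set (Lv A z)} (hY : Y ⊆ Yc A z) {p q : Lv A z} (h : Rch Y p q) :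
    Rch (A2 A \ Vg A z G) (wm p) (wm q) := h.map fun p hp q hq l =>
  have m : Ch.pr _ _ (Lv.ch_le l) ∈ A2 A \ Vg A z G :=
    mem_out (by simpa using hY hq) (by simpa using lv_pos' p)
  (Rch.of_cm (wm_mem (hY hp)) m (Or.inl (Ch.pt_le.2 (by simp)))).trans
    (Rch.of_cm m (wm_mem (hY hq)) (Or.inr (Ch.pt_le.2 (by simp))))

include hm hj in
theorem low_rch {p : Lv A z} (h : p ∈ Yc A z) {c : Ch P} (l : c ≤ p.1.1)
    (k : ∀ x ∈ c.1, 0 < z x p.1.1.top) : Rch (Vg A z G) (Ch.pr c p.1.1 l) (wp p) := by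
  have l0 : p.1.1.bot ≤ c.bot := Ch.bot_anti l
  have l1 := le_bt c _ l0
  have l2 : bt c _ l0 ≤ p.1.1 := insert_subset p.1.1.bot_mem l
  have l3 : Ch.pt p.1.1.bot ≤ bt c _ l0 := Ch.pt_le.2 (by simp)
  have p0 := lv_pos' p
  have m0 : Ch.pr c p.1.1 l ∈ Vg A z G := mem_Vg hm hj (by simpa using h) (by simpa using k)
  have m1 : tri _ _ _ l1 l2 ∈ Vg A z G := mem_Vg hm hj (by simpa using h) (by simpa using k)
  have m2 : Ch.pr _ _ l2 ∈ Vg A z G := mem_Vg hm hj (by simpa using h) (by simpa [p0] using k)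
  have m3 : tri _ _ _ l3 l2 ∈ Vg A z G := mem_Vg hm hj (by simpa using h) (by simpa using p0)
  have m4 : wp p ∈ Vg A z G := mem_Vg hm hj (by simpa [wp] using h) (by simpa [wp] using p0)
  exact ((Rch.of_cm m0 m1 (Or.inl (pr_le (by simp) (by simp)))).trans
    (Rch.of_cm m1 m2 (Or.inr (pr_le (by simp) (by simp))))).trans
    ((Rch.of_cm m2 m3 (Or.inl (pr_le (by simp) (by simp)))).trans
      (Rch.of_cm m3 m4 (Or.inr (pr_le (by simp) (by simp)))))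

include hm hj in
theorem wp_rch {Y : Set (Lv A z)} (hY : Y ⊆ Yc A z) {p q : Lv A z} (h : Rch Y p q) :
    Rch (Vg A z G) (wp p) (wp q) := h.map fun p hp q hq l => by
  have l1 := Lv.ch_le l
  have l0 : Ch.pt p.1.1.bot ≤ p.1.1 := Ch.pt_le.2 p.1.1.bot_mem
  have p0 := lv_pos' p
  have p1 : 0 < z p.1.1.bot q.1.1.top := by
    have := add3 (z := z) (mem_yc.1 (hY hq)) p.1.1.bot_le_top (Ch.top_mono l1)
    have := hm _ _ (Dp.of_right (mem_yc.1 (hY hq)) (Ch.top_mono l1))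
    omega
  have m0 : wp p ∈ Vg A z G := mem_Vg hm hj (by simpa [wp] using hY hp) (by simpa [wp] using p0)
  have m1 : tri _ _ _ l0 l1 ∈ Vg A z G := mem_Vg hm hj (by simpa using hY hq) (by simpa using p1)
  have m2 : Ch.pr _ _ (l0.trans l1) ∈ Vg A z G :=
    mem_Vg hm hj (by simpa using hY hq) (by simpa using p1)
  exact ((Rch.of_cm m0 m1 (Or.inl (pr_le (by simp) (by simp)))).trans
    (Rch.of_cm m1 m2 (Or.inr (pr_le (by simp) (by simp))))).trans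
    (low_rch hm hj (hY hq) _ (by simpa using p1))

/-- the cell of a crossing chain -/
def cel {c : Ch P} (h : c.top ∈ A) (k : 0 < z c.bot c.top) : Lv A z :=
  ⟨(c, 0), Mt.dom ⟨_, c.top_mem, h⟩, le_rfl, k⟩

/-- the components of `Yc` that do not reach `O₋` -/
def J1 (A : Set P) (z : P → P → ℤ) [IsCoc A z] : Finset (Set (Lv A z)) :=
  (Sf30.cs (Yc A z)).filter fun Y => ∀ p ∈ Y, ∀ q ≤ p, q ∈ LA A z

/-- the components of `Yc` that do not reach `O₊` -/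
def J2 (A : Set P) (z : P → P → ℤ) [IsCoc A z] : Finset (Set (Lv A z)) :=
  (Sf30.cs (Yc A z)).filter fun Y => ∀ p ∈ Y, ∀ q, p ≤ q → q ∈ Yc A z

include hm hj in
theorem r1_Vg (hG : G ⊆ A)
    (R1 : ∀ a ∈ G, ∃ b, Rz z G a b ∧ b ∈ G ∧ ∃ o, b ≤ o ∧ (o ∉ A ∨ 0 < z b o)) :
    ∀ C ∈ Vg A z G, ∃ b, Rch (Vg A z G) C b ∧ ((∃ o : Ch (Ch P), o.top.top ∉ A ∧ b ≤ o) ∨
      ∃ i ∈ (J1 A z).disjSum (J2 A z), b ∈ Sum.elim (wm '' ·) (wp '' ·) i) := by
  have k1 : ∀ C : Ch (Ch P), C ∈ Vg A z G → 0 < z C.bot.top C.top.top →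
      ∃ b, Rch (Vg A z G) C b ∧ ((∃ o : Ch (Ch P), o.top.top ∉ A ∧ b ≤ o) ∨
        ∃ i ∈ (J1 A z).disjSum (J2 A z), b ∈ Sum.elim (wm '' ·) (wp '' ·) i) := by
    intro C hC k
    have l : C.bot.top ≤ C.top.top := Ch.top_mono C.bot_le_top
    have lo := (flat_iff hm hj hC.1 l).1.1 ⟨hC.2.1, k⟩
    let p := cel hC.1 (k.trans_le (hm.le_range hz.coc (Mt.dom ⟨_, C.top.top_mem, hC.1⟩)
      (C.bot_le_top C.bot.top_mem) C.top.top_mem l))
    have hp : p ∈ Yc A z := hC.1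
    have r : Rch (Vg A z G) C (wp p) := (Rch.of_cm hC (mem_Vg hm hj (by simpa using hC.1)
      (by simpa using lo)) (Or.inr (pr_le C.bot_mem C.top_mem))).trans
      (low_rch hm hj hp C.bot_le_top lo)
    by_cases j : Hp13.cmp (Yc A z) p ∈ J2 A z
    · exact ⟨_, r, Or.inr ⟨.inr _, inr_mem_disjSum.2 j, p, mem_cmp_self hp, rfl⟩⟩
    · simp only [J2, mem_filter, Sf30.mem_cs, isCmp_cmp hp, true_and, not_forall] at j
      obtain ⟨q, q1, q', q2, q3⟩ := j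
      exact ⟨_, r.trans (wp_rch hm hj subset_rfl q1.2), Or.inl ⟨tri _ _ _
        (Ch.pt_le.2 q.1.1.bot_mem) (Lv.ch_le q2), by simpa using q3, pr_le (by simp) (by simp)⟩⟩
  intro C hC
  by_cases k : 0 < z (Ch.bot C).top (Ch.top C).top
  · exact k1 C hC k
  have hC' : C ∈ Fl z G := ⟨hC.2.2.resolve_left k,
    (flat_iff hm hj hC.1 (Ch.top_mono (Ch.bot_le_top C))).2.1 ⟨hC.2.1, k⟩⟩
  obtain ⟨b, r, hb, o, l, j⟩ := R1 _ hC'.1
  have r' := ((fl_rch hG hC').trans (fl_rz hG r)).mono (fl_in hm hj hG)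
  have l' : Ch.pt b ≤ Ch.pr b o l := Ch.pt_le.2 (by simp)
  by_cases ho : o ∈ A
  · have j := j.resolve_left (not_not.2 ho)
    have m : Ch.pr _ _ l' ∈ Vg A z G := mem_Vg hm hj (by simpa using ho) (by simpa using j)
    obtain ⟨e, e1, e2⟩ := k1 _ m (by simpa using j)
    exact ⟨e, (r'.trans (Rch.of_cm (fl_in hm hj hG (fl_pt hG hb)) m
      (Or.inl (Ch.pt_le.2 (by simp))))).trans e1, e2⟩
  · exact ⟨_, r', Or.inl ⟨Ch.pr _ _ l', show (Ch.pr _ _ l').top.top ∉ A by simpa using ho,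
      Ch.pt_le.2 (by simp)⟩⟩

include hm hj in
theorem r0_Vg (R0 : ∀ a ∈ A \ G, ∃ b, Rz z (A \ G) a b ∧ b ∈ A \ G ∧
      ∃ o, o ≤ b ∧ (o ∉ A ∨ 0 < z o b)) :
    ∀ C ∈ A2 A \ Vg A z G, ∃ b, Rch (A2 A \ Vg A z G) C b ∧
      ((∃ o : Ch (Ch P), o.top.top ∉ A ∧ o ≤ b) ∨
        ∃ i ∈ (J1 A z).disjSum (J2 A z), b ∈ Sum.elim (wm '' ·) (wp '' ·) i) := by
  have k1 : ∀ p ∈ Yc A z, ∃ b, Rch (A2 A \ Vg A z G) (wm p) b ∧
      ((∃ o : Ch (Ch P), o.top.top ∉ A ∧ o ≤ b) ∨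
        ∃ i ∈ (J1 A z).disjSum (J2 A z), b ∈ Sum.elim (wm '' ·) (wp '' ·) i) := by
    intro p hp
    by_cases j : Hp13.cmp (Yc A z) p ∈ J1 A z
    · exact ⟨_, Rch.rfl, Or.inr ⟨.inl _, inl_mem_disjSum.2 j, p, mem_cmp_self hp, rfl⟩⟩
    · simp only [J1, mem_filter, Sf30.mem_cs, isCmp_cmp hp, true_and, not_forall] at j
      obtain ⟨q, q1, q', q2, q3⟩ := j
      have m : Ch.pr _ _ (Lv.ch_le q2) ∈ A2 A \ Vg A z G :=
        mem_out (by simpa using q1.1) (by simpa using lv_pos' q')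
      exact ⟨_, (wm_rch subset_rfl q1.2).trans (Rch.of_cm (wm_mem q1.1) m
        (Or.inl (Ch.pt_le.2 (by simp)))), Or.inl ⟨wm q',
          by simpa [wm] using fun k => q3 (yc_la k), Ch.pt_le.2 (by simp)⟩⟩
  intro C hC
  have hA : (Ch.top C).top ∈ A := hC.1
  have l : (Ch.bot C).top ≤ (Ch.top C).top := Ch.top_mono (Ch.bot_le_top C)
  by_cases k : z (Ch.bot C).bot (Ch.bot C).top = 0
  swap
  · have k := lt_of_le_of_ne (hm _ _ (dp_hi hA (Ch.bot C).bot_le_top l)) (Ne.symm k)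
    let p := cel hA (k.trans_le (hm.le_range hz.coc (Mt.dom ⟨_, (Ch.top C).top_mem, hA⟩)
      (Ch.bot_le_top C (Ch.bot C).bot_mem) (Ch.bot_le_top C (Ch.bot C).top_mem)
      (Ch.bot C).bot_le_top))
    obtain ⟨b, r, e⟩ := k1 p hA
    exact ⟨b, (Rch.of_cm hC (wm_mem (p := p) hA) (Or.inr (Ch.pt_le.2 (Ch.top_mem C)))).trans r, e⟩
  have hC' : C ∈ Fl z (A \ G) := ⟨⟨hA, fun j => hC.2 ⟨hA, k, Or.inr j⟩⟩,
    (flat_iff hm hj hA l).2.1 ⟨k, fun j => hC.2 ⟨hA, k, Or.inl j⟩⟩⟩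
  obtain ⟨b, r, hb, o, l, j⟩ := R0 _ hC'.1
  have r' := (fl_rch Set.sdiff_subset hC').trans (fl_rz Set.sdiff_subset r)
  by_cases ho : 0 < z o b
  · have l' : Ch.pt b ≤ Ch.pr o b l := Ch.pt_le.2 (by simp)
    have m : Ch.pr _ _ l' ∈ Fl z (A \ G) := by
      simpa [Fl, self0 hz.coc hb.1] using hb
    let p := cel (z := z) (c := Ch.pr o b l) (by simpa using hb.1) (by simpa using ho)
    have hp : p ∈ Yc A z := show (Ch.pr o b l).top ∈ A by simpa using hb.1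
    obtain ⟨e, e1, e2⟩ := k1 p hp
    exact ⟨e, (((r'.trans (Rch.of_cm (fl_pt Set.sdiff_subset hb) m
      (Or.inl (Ch.pt_le.2 (by simp))))).mono (fl_out hm hj)).trans (Rch.of_cm (fl_out hm hj m)
        (wm_mem hp) (Or.inr (Ch.pt_le.2 (by simp [p, cel]))))).trans e1, e2⟩
  · have l' : Ch.pt o ≤ Ch.pr o b l := Ch.pt_le.2 (by simp)
    have e : z o b = 0 := le_antisymm (not_lt.1 ho) (hm _ _ (Dp.of_right hb.1 l))
    have m : Ch.pr _ _ l' ∈ Fl z (A \ G) := by simpa [Fl, e] using hb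
    have r2 := fl_rch Set.sdiff_subset m
    simp only [Ch.top_pr] at r2
    exact ⟨_, (r'.trans r2.symm).mono (fl_out hm hj), Or.inl ⟨Ch.pt (Ch.pt o),
      show (Ch.pt (Ch.pt o)).top.top ∉ A by simpa using j.resolve_right ho,
      Ch.pt_le.2 (by simp)⟩⟩

end

theorem glue0 {s : St} (h : Inv s) {z : s.P → s.P → ℤ} [hz : IsCoc s.A z] (hm : Mono s.A z)
    (hj : JK s.A z) {G : Set s.P} (hG : G ⊆ s.A)
    (up : ∀ x ∈ G, ∀ y ∈ s.A, x ≤ y → z x y = 0 → y ∈ G)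
    (R1 : ∀ a ∈ G, ∃ b, Rz z G a b ∧ b ∈ G ∧ ∃ o, b ≤ o ∧ (o ∉ s.A ∨ 0 < z b o))
    (R0 : ∀ a ∈ s.A \ G, ∃ b, Rz z (s.A \ G) a b ∧ b ∈ s.A \ G ∧
      ∃ o, o ≤ b ∧ (o ∉ s.A ∨ 0 < z o b)) :
    chiC (Yc s.A z) ≤ ee G + (J1 s.A z).card + (J2 s.A z).card := by
  have := brg (Alg36.inv_desc h ((Desc.sd s).trans (Desc.sd s.sd))) (V := Vg s.A z G)
    (fun _ k => k.1) (fun C hC D hD l => up_Vg hm up hC hD l) ((J1 s.A z).disjSum (J2 s.A z))
    (Sum.elim (wm '' ·) (wp '' ·)) ?_ (r1_Vg hm hj hG R1) (r0_Vg hm hj R0)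
  · erw [ee_Vg hm hj hG, card_disjSum] at this
    push_cast at this
    omega
  · rintro (Y | Y) hY _ ⟨p, hp, rfl⟩
    · have k := Sf30.mem_cs.1 (mem_filter.1 (inl_mem_disjSum.1 hY)).1
      refine ⟨(wm_mem (G := G) (k.sub hp)).1, ?_⟩
      rintro _ ⟨q, hq, rfl⟩
      exact sd_out (wm_rch k.sub (k.conn p hp q hq))
    · have k := Sf30.mem_cs.1 (mem_filter.1 (inr_mem_disjSum.1 hY)).1
      refine ⟨show (wp p).top.top ∈ s.A by simpa [wp] using k.sub hp, ?_⟩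
      rintro _ ⟨q, hq, rfl⟩
      exact sd_in (fun _ k => k.1) (wp_rch hm hj k.sub (k.conn p hp q hq))

/-- **GLUE**: the cut along a surface with few bad pieces is taut against potentials -/
theorem glue {s c : St} (h : Inv s) {z : s.P → s.P → ℤ} [hz : IsCoc s.A z] (hm : Mono s.A z)
    (hj : JK s.A z) {π : c.P → s.P} (hc : Cov s c z π)
    (hΦ : ((J1 s.A z).card : ℤ) + (J2 s.A z).card ≤ chiC (Yc s.A z)) : Pot c := by
  intro V hV up R1 R0
  have L := hc.toLift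
  have rz : ∀ {E : Set c.P} {S : Set s.P}, E ⊆ c.A → (∀ b ∈ E, π b ∈ S) → ∀ {a b},
      Rch E a b → Rz z S (π a) (π b) := fun hE hS a b r => by
    induction r with
    | refl => exact .refl
    | tail _ k ih =>
      exact ih.tail ⟨hS _ k.1, hS _ k.2.1, k.2.2.imp ((hc.le_iff (hE k.1) (hE k.2.1)).1)
        (hc.le_iff (hE k.2.1) (hE k.1)).1⟩
  have hG : π '' V ⊆ s.A := by rintro _ ⟨b, hb, rfl⟩; exact L.mem (hV hb)
  have ng : ∀ b ∈ c.A \ V, π b ∈ s.A \ π '' V := fun b hb =>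
    ⟨L.mem hb.1, fun ⟨b', h1, e⟩ => hb.2 (L.bij.injOn (hV h1) hb.1 e ▸ h1)⟩
  have := glue0 h hm hj hG ?_ ?_ ?_
  · have e := L.ee_pre hG
    rw [show {b | b ∈ c.A ∧ π b ∈ π '' V} = V from Set.ext fun b =>
      ⟨fun k => by_contra fun j => (ng b ⟨k.1, j⟩).2 k.2, fun k => ⟨hV k, ⟨b, k, rfl⟩⟩⟩] at e
    omega
  · rintro _ ⟨b, hb, rfl⟩ y hy l e
    obtain ⟨b', hb', rfl⟩ := L.exA hy
    exact ⟨b', up b hb b' hb' ((hc.le_iff (hV hb) hb').2 ⟨l, e⟩), rfl⟩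
  · rintro _ ⟨a, ha, rfl⟩
    obtain ⟨b, r, o, o1, o2⟩ := R1 a ha
    have hb := r.mem ha
    refine ⟨_, rz (S := π '' V) hV (fun b hb => ⟨b, hb, rfl⟩) r, ⟨b, hb, rfl⟩, π o, L.mon o2,
      or_iff_not_imp_left.2 fun k => lt_of_le_of_ne (hm _ _ (Dp.of_left (L.mem (hV hb))
        (L.mon o2))) fun e => o1 ((hc.up b (hV hb) o o2).2 ⟨not_not.1 k, e.symm⟩)⟩
  · intro x hx
    obtain ⟨a, ha, rfl⟩ := L.exA hx.1
    have ha' : a ∈ c.A \ V := ⟨ha, fun k => hx.2 ⟨a, k, rfl⟩⟩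
    obtain ⟨b, r, o, o1, o2⟩ := R0 a ha'
    have hb := r.mem ha'
    refine ⟨_, rz Set.sdiff_subset ng r, ng b hb, π o, L.mon o2,
      or_iff_not_imp_left.2 fun k => lt_of_le_of_ne (hm _ _ (Dp.of_right (L.mem hb.1)
        (L.mon o2))) fun e => o1 ((hc.dn b hb.1 o o2).2 ⟨not_not.1 k, e.symm⟩)⟩

end Crest.Agent.X212.Ind26
end
end

-- ▼ part X212/Ind26/Circ

/-!
# X212 / Ind26 (helper26): the boundary is a surface, the boundary of a disc is a circle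
-/

set_option autoImplicit false
set_option linter.unusedSectionVars false

open Finset Classical

noncomputable section

namespace Crest.Agent.X212.Ind26

open Hp13 Cut21
open Alg36 (Om Op Esc Fb Clo iIn iMt)

variable {P : Type} [PartialOrder P] [Fintype P] {A : Set P} {z : P → P → ℤ}

/-- the part of a chain off `A` -/
def offA (A : Set P) (c : Ch P) (h : ∃ x ∈ c.1, x ∉ A) : Ch P :=
  c.sub (c.1.filter (· ∉ A)) (let ⟨x, h1, h2⟩ := h; ⟨x, mem_filter.2 ⟨h1, h2⟩⟩) (filter_subset _ _)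

theorem mem_offA {c : Ch P} {h : ∃ x ∈ c.1, x ∉ A} {x : P} :
    x ∈ (offA A c h).1 ↔ x ∈ c.1 ∧ x ∉ A := mem_filter

theorem not_mt {c : Ch P} : ¬ Mt A c ↔ ∀ x ∈ c.1, x ∉ A := by simp [Mt]

theorem offA_le {c : Ch P} {h : ∃ x ∈ c.1, x ∉ A} : offA A c h ≤ c := filter_subset _ _

theorem le_offA {c n : Ch P} (hn : ¬ Mt A n) (l : n ≤ c) {h : ∃ x ∈ c.1, x ∉ A} :
    n ≤ offA A c h := fun x hx => mem_offA.2 ⟨l hx, not_mt.1 hn x hx⟩

theorem offA_not {c : Ch P} {h : ∃ x ∈ c.1, x ∉ A} : ¬ Mt A (offA A c h) :=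
  not_mt.2 fun _ hx => (mem_offA.1 hx).2

/-- the extensions of a boundary chain by points of `A` -/
def Xt (A : Set P) (n e : Ch P) : Prop := n ≤ e ∧ Mt A e ∧ ∀ x ∈ e.1, x ∉ A → x ∈ n.1

theorem sum_xt (hN : Nice A) {n : Ch P} (hd : Dom A n) (hn : ¬ Mt A n) :
    ∑ e ∈ univ.filter (Xt A n), e.sg = -n.sg := by
  have h1 := (hN n hd hn).eu
  generalize hF : {a | a ∈ A ∧ ∀ x ∈ n.1, Cm a x} = F at h1
  have mF : ∀ {d : Ch P}, d ∈ univ.filter (fun c : Ch P => ∀ x ∈ c.1, x ∈ F) ↔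
      ∀ x ∈ d.1, x ∈ A ∧ ∀ y ∈ n.1, Cm x y := by simp [← hF]
  rw [eu, neg_eq_iff_eq_neg] at h1
  rw [← mul_neg_one, ← h1, mul_sum]
  symm
  refine sum_bij (fun d hd => Ch.mk' (n.1 ∪ d.1) (n.2.1.mono subset_union_left) fun x hx y hy => ?_)
    (fun d hd => ?_) (fun d hd d' hd' e => ?_) (fun e he => ?_) fun d hd => ?_
  · have := mF.1 hd
    rcases mem_union.1 hx with hx | hx <;> rcases mem_union.1 hy with hy | hy
    exacts [n.cm hx hy, ((this y hy).2 x hx).symm, (this x hx).2 y hy, d.cm hx hy]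
  · have := mF.1 hd
    exact mem_filter.2 ⟨mem_univ _, subset_union_left,
      ⟨_, mem_union_right _ d.top_mem, (this _ d.top_mem).1⟩,
      fun x hx k => (mem_union.1 hx).resolve_right fun j => k (this x j).1⟩
  · have k : ∀ d d' : Ch P, (∀ x ∈ d.1, x ∈ A) → n.1 ∪ d.1 = n.1 ∪ d'.1 → d ≤ d' :=
      fun d d' h e x hx => (mem_union.1 (e ▸ mem_union_right _ hx)).resolve_left
        fun j => not_mt.1 hn x j (h x hx)
    have e' := congrArg Subtype.val e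
    exact le_antisymm (k _ _ (fun x hx => (mF.1 hd x hx).1) e')
      (k _ _ (fun x hx => (mF.1 hd' x hx).1) e'.symm)
  · obtain ⟨h1, ⟨a, a1, a2⟩, h3⟩ := (mem_filter.1 he).2
    refine ⟨e.sub (e.1.filter (· ∈ A)) ⟨a, mem_filter.2 ⟨a1, a2⟩⟩ (filter_subset _ _),
      mF.2 fun x hx => ⟨(mem_filter.1 hx).2,
        fun y hy => e.cm (mem_filter.1 hx).1 (h1 hy)⟩, Ch.ext (Finset.ext fun x => ?_)⟩
    exact ⟨fun k => (mem_union.1 k).elim (fun j => h1 j) fun j => (mem_filter.1 j).1,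
      fun k => mem_union.2 (or_iff_not_imp_right.2 fun j => h3 x k fun i => j (mem_filter.2 ⟨k, i⟩))⟩
  · have : Disjoint n.1 d.1 := disjoint_left.2 fun x hx j =>
      not_mt.1 hn x hx (mF.1 hd x j).1
    show _ = (-1 : ℤ) ^ (n.1 ∪ d.1).card
    rw [card_union_of_disjoint this, pow_add]; rfl

/-- the cells of `M` over a boundary chain -/
theorem sum_lam (hM : Mf 3 A) (hN : Nice A) {n : Ch P} (hd : Dom A n) (hn : ¬ Mt A n) :
    ∑ c ∈ univ.filter (fun c => n ≤ c ∧ Mt A c), c.sg = 1 := by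
  have h1 := Alg36.Mf.dual_sum hM (fun e => if Xt A n e then 1 else 0)
    fun e he => if_neg fun k => he k.2.1
  have h2 : ∀ c : Ch P, ∑ e ∈ univ.filter (· ≤ c), e.sg * (if Xt A n e then 1 else 0) =
      if n ≤ c ∧ Mt A c then -n.sg else 0 := fun c => by
    simp only [mul_ite, mul_one, mul_zero, ← sum_filter, filter_filter]
    split_ifs with k
    swap
    · exact sum_eq_zero fun e he => absurd ⟨(mem_filter.1 he).2.2.1.trans (mem_filter.1 he).2.1,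
        (mem_filter.1 he).2.2.2.1.mono (mem_filter.1 he).2.1⟩ k
    let t : Ch P := c.sub (c.1.filter fun x => x ∈ A ∨ x ∈ n.1)
      ⟨_, mem_filter.2 ⟨k.1 n.top_mem, Or.inr n.top_mem⟩⟩ (filter_subset _ _)
    have l : n ≤ t := fun x hx => mem_filter.2 ⟨k.1 hx, Or.inr hx⟩
    obtain ⟨a, a1, a2⟩ := k.2
    have l' : n < t := l.lt_of_ne fun e => hn ⟨a, e ▸ mem_filter.2 ⟨a1, Or.inl a2⟩, a2⟩
    have := Alg36.sum_Icc l'
    rw [show univ.filter (fun e => n ≤ e ∧ e ≤ t) =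
      insert n (univ.filter fun e => e ≤ c ∧ Xt A n e) from Finset.ext fun e => ?_,
      sum_insert fun j => hn (mem_filter.1 j).2.2.2.1] at this
    · linear_combination this
    simp only [mem_filter, mem_univ, true_and, mem_insert]
    refine ⟨fun ⟨j1, j2⟩ => or_iff_not_imp_right.2 fun j => le_antisymm (fun x hx => ?_) j1, ?_⟩
    · refine (mem_filter.1 (j2 hx)).2.resolve_left fun i => j ⟨fun y hy => (mem_filter.1 (j2 hy)).1,
        j1, ⟨x, hx, i⟩, fun y hy i => (mem_filter.1 (j2 hy)).2.resolve_left i⟩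
    · rintro (rfl | ⟨j1, j2, -, j3⟩)
      exacts [⟨le_rfl, l⟩, ⟨j2, fun x hx => mem_filter.2 ⟨j1 hx, or_iff_not_imp_left.2 (j3 x hx)⟩⟩]
  simp only [h2] at h1
  simp only [mul_ite, mul_one, mul_zero, ← sum_filter] at h1
  rw [sum_xt hN hd hn, ← sum_mul] at h1
  linear_combination (-n.sg) * h1 - (∑ c ∈ univ.filter (fun c => n ≤ c ∧ Mt A c), c.sg - 1) * n.sg_sq

/-- the boundary is a closed surface -/
theorem sum_bd (hM : Mf 3 A) (hN : Nice A) {n : Ch P} (hd : Dom A n) (hn : ¬ Mt A n) :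
    ∑ c ∈ univ.filter (fun c => n ≤ c ∧ Dom A c ∧ ¬ Mt A c), c.sg = -1 := by
  have ne : ∀ c, n ≤ c → ∃ x ∈ c.1, x ∉ A := fun c l =>
    ⟨_, l n.top_mem, not_mt.1 hn _ n.top_mem⟩
  rw [← neg_inj, neg_neg, ← sum_lam hM hN hd hn, ← sum_neg_distrib,
    ← sum_fiberwise_of_maps_to (s := univ.filter fun c => n ≤ c ∧ Mt A c)
      (t := univ.filter fun c => n ≤ c ∧ Dom A c ∧ ¬ Mt A c)
      (g := fun c => if h : n ≤ c then offA A c (ne c h) else c) fun c hc => ?_]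
  · refine sum_congr rfl fun m hm => ?_
    obtain ⟨m1, m2, m3⟩ := (mem_filter.1 hm).2
    rw [← sum_xt hN m2 m3]
    refine sum_congr (Finset.ext fun c => ?_) fun _ _ => rfl
    simp only [mem_filter, mem_univ, true_and]
    refine ⟨fun ⟨j1, j2, j3⟩ => ⟨⟨m1.trans j1, j2⟩, ?_⟩, fun ⟨⟨j1, j2⟩, j3⟩ => ?_⟩
    · rw [dif_pos (m1.trans j1)]
      exact le_antisymm (fun x hx => j3 x (mem_offA.1 hx).1 (mem_offA.1 hx).2) (le_offA m3 j1)
    · rw [dif_pos j1] at j3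
      exact j3 ▸ ⟨offA_le, j2, fun x hx k => mem_offA.2 ⟨hx, k⟩⟩
  · obtain ⟨j1, j2⟩ := (mem_filter.1 hc).2
    rw [dif_pos j1]
    exact mem_filter.2 ⟨mem_univ _, le_offA hn j1, j2.dom.mono offA_le, offA_not⟩

theorem card_bd (hM : Mf 3 A) {n : Ch P} (hd : Dom A n) (hn : ¬ Mt A n) : n.1.card ≤ 3 := by
  obtain ⟨a, ha, k⟩ := hd
  have := hM.card_le (n.ins a k) ⟨a, mem_insert_self _ _, ha⟩
  rw [Ch.ins_val, card_insert_of_notMem fun j => hn ⟨a, j, ha⟩] at this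
  omega

variable [hz : IsCoc A z]

/-- the boundary of a surface is a closed curve; `K` is an open part of it -/
theorem two_chiC (hM : Mf 3 A) (hN : Nice A) (hm : Mono A z) {K : Set (Lv A z)}
    (hK : ∀ q ∈ K, q ∉ LA A z) (up : ∀ q ∈ K, ∀ r, r ∉ LA A z → q ≤ r → r ∈ K) :
    2 * chiC K = -∑ r ∈ univ.filter (· ∈ K), ((univ.filter fun q => q ≤ r ∧ q ∉ K).card : ℤ) := by
  have h1 : ∀ q ∈ univ.filter (· ∈ K),
      ∑ r ∈ univ.filter (fun r => r ∈ K ∧ q ≤ r), r.1.1.sg = -1 := fun q hq => by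
    have hq := (mem_filter.1 hq).2
    rw [← sum_bd hM hN q.2.1 (hK q hq)]
    refine sum_bij (fun r _ => r.1.1) (fun r hr => mem_filter.2 ⟨mem_univ _,
      Lv.ch_le (mem_filter.1 hr).2.2, r.2.1, hK r (mem_filter.1 hr).2.1⟩)
      (fun r hr r' hr' e => Sf30.lv_eq_of_ge (mem_filter.1 hr).2.2 (mem_filter.1 hr').2.2 e)
      (fun c hc => ?_) fun _ _ => rfl
    obtain ⟨j1, j2, j3⟩ := (mem_filter.1 hc).2
    obtain ⟨r, r1, r2⟩ := Lv.exists_ge hm q j2 j1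
    exact ⟨r, mem_filter.2 ⟨mem_univ _, up q hq r (r1 ▸ j3 :) r2, r2⟩, r1⟩
  have h2 := sum_congr rfl h1
  rw [sum_comm' (t' := univ.filter (· ∈ K)) (s' := fun r => univ.filter fun q => q ≤ r ∧ q ∈ K)
    (by simp only [mem_filter, mem_univ, true_and]; tauto)] at h2
  rw [chiC, mul_sum, ← sum_neg_distrib, ← sub_eq_zero, ← sum_sub_distrib]
  refine Eq.trans ?_ (sub_eq_zero.2 h2)
  rw [← sum_sub_distrib]
  refine sum_congr rfl fun r hr => ?_
  have hr := (mem_filter.1 hr).2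
  have c1 := card_filter_add_card_filter_not (s := univ.filter (· ≤ r)) (· ∈ K)
  have c2 : univ.filter (· ≤ r) = insert r (univ.filter (· < r)) := Finset.ext fun q => by
    simp [le_iff_eq_or_lt]
  have c3 : 0 < (univ.filter fun q => q ≤ r ∧ q ∈ K).card := card_pos.2 ⟨r, by simp [hr]⟩
  rw [filter_filter, filter_filter, c2, card_insert_of_notMem (by simp)] at c1
  have c4 := card_bd hM r.2.1 (hK r hr)
  have c5 := Sf30.lv_two_le r
  rw [sum_const, nsmul_eq_mul, Ch.sg]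
  generalize (univ.filter fun q => q ≤ r ∧ q ∈ K).card = m at c1 c3 ⊢
  generalize (univ.filter fun q => q ≤ r ∧ q ∉ K).card = n at c1 ⊢
  by_cases k : r.1.1.1.card = 3
  · rw [Sf30.card_dn hm k] at c1
    rw [k]; norm_num; omega
  · rw [filter_false_of_mem (p := (· < r)) fun q _ l => by
      have := Sf30.lv_card_lt l
      have := Sf30.lv_two_le q
      omega, card_empty] at c1
    rw [show r.1.1.1.card = 2 by omega]; norm_num; omega

/-- the boundary cells of `D` -/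
def Bd (D : Set (Lv A z)) : Set (Lv A z) := {q | q ∉ LA A z ∧ q ∈ dn D}

theorem conn_bd (hM : Mf 3 A) (hm : Mono A z) {D : Set (Lv A z)} (hD : IsCmp (LA A z) D)
    (h1 : chiC D = 1) : Conn (Bd D) := by
  have hU := hD.upper Sf30.la_upper
  have h2 := Sf30.conn_mix2 ((Sf30.mf_LA hM hm).mono hD.sub) hD.conn
    (by rw [← Sf30.chiC_eq_eu hM hm hD.sub hU, h1])
  have m : ∀ κ ∈ Alg36.mix D, κ.bot ∈ Bd D := fun κ ⟨⟨p, p1, p2⟩, q, q1, q2⟩ =>
    ⟨fun k => q2 (hU (Ch.bot_le q1) (hD.clopen p2 k (Or.inr (Ch.bot_le p1)))), p, p2, Ch.bot_le p1⟩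
  rintro q ⟨q1, p, p1, p2⟩ q' ⟨r1, p', r2, r3⟩
  have := (h2 (Ch.pr q p p2) ⟨⟨p, by simp, p1⟩, q, by simp, fun k => q1 (hD.sub k)⟩
    (Ch.pr q' p' r3) ⟨⟨p', by simp, r2⟩, q', by simp, fun k => r1 (hD.sub k)⟩).map (f := Ch.bot)
    fun κ h1 κ' h2 l => Rch.of_cm (m κ h1) (m κ' h2) (Or.inr (Ch.bot_anti l))
  simpa using this

theorem sat_cmp (hN : Nice A) (hm : Mono A z) {D : Set (Lv A z)} (hD : IsCmp (LA A z) D) :
    Sat (dn D) := hN.sat hm hD.sub fun _ hp _ hq k => hD.clopen hp hq k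

theorem om_off (hA : A.OrdConnected) {c : Ch P} (h : c.top ∈ Om A) : ¬ Mt A c :=
  not_mt.2 fun _ hx => (om_dn hA h (Ch.le_top hx)).1

theorem nm_cnt (hm : Mono A z) {T : Set (Lv A z)} (hT : Sat T) :
    nm A (cnt T) = chiC {q | q ∈ T ∧ q.1.1.top ∈ Om A} := by
  generalize hF : {q | q ∈ T ∧ q.1.1.top ∈ Om A} = F
  have mF : ∀ {q}, q ∈ univ.filter (· ∈ F) ↔ q ∈ T ∧ q.1.1.top ∈ Om A := by simp [← hF]
  rw [nm, chiC, ← sum_fiberwise_of_maps_to (s := univ.filter (· ∈ F))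
    (t := univ.filter fun c : Ch P => c.top ∈ Om A)
    (g := fun p : Lv A z => p.1.1) fun p hp => mem_filter.2 ⟨mem_univ _, (mF.1 hp).2⟩]
  refine sum_congr rfl fun c hc => ?_
  have hc := (mem_filter.1 hc).2
  have hd : Dom A c := let ⟨_, a, ha, l⟩ := hc; ⟨a, ha, fun x hx => Or.inr ((Ch.le_top hx).trans l)⟩
  rw [sum_congr rfl (g := fun _ => c.sg) fun p hp => by rw [(mem_filter.1 hp).2], sum_const,
    nsmul_eq_mul, mul_comm, hT.cnt_bt hm hd, nlev]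
  congr 2
  symm
  refine card_bij (fun p _ => p.1.2) (fun p hp => ?_) (fun p hp q hq e => ?_) fun k hk => ?_
  · obtain ⟨h1, h2⟩ := mem_filter.1 hp
    exact mem_filter.2 ⟨h2 ▸ mem_Ico.2 p.2.2, p, (mF.1 h1).1, h2, rfl⟩
  · exact Lv.ext ((mem_filter.1 hp).2.trans (mem_filter.1 hq).2.symm) e
  · obtain ⟨-, q, q1, q2, q3⟩ := mem_filter.1 hk
    exact ⟨q, mem_filter.2 ⟨mF.2 ⟨q1, q2 ▸ hc⟩, q2⟩, q3⟩

/-- **circle**: with at most one arc on `R₋` the rest of the boundary of a disc is connected -/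
theorem conn_bp (hA : A.OrdConnected) (hM : Mf 3 A) (hN : Nice A) (hm : Mono A z)
    {D : Set (Lv A z)} (hD : IsCmp (LA A z) D) (h1 : chiC D = 1) (h2 : nm A (cnt (dn D)) ≤ 1) :
    Conn {q | q ∈ Bd D ∧ q.1.1.top ∉ Om A} := by
  set B := {q | q ∈ Bd D ∧ q.1.1.top ∉ Om A}
  have sat := sat_cmp hN hm hD
  have e0 : chiC (Bd D) = 0 := by
    have := two_chiC hM hN hm (K := Bd D) (fun _ k => k.1)
      fun q hq r hr l => ⟨hr, (sat q r l).1 hq.2⟩
    rw [sum_eq_zero fun r hr => by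
      rw [filter_false_of_mem fun q _ k => k.2 ⟨fun j => (mem_filter.1 hr).2.1 (LA.upper j k.1),
        (sat q r k.1).2 (mem_filter.1 hr).2.2⟩]; rfl] at this
    omega
  have e1 := chiC_split (Bd D) B
  rw [Set.inter_eq_right.2 fun _ k => k.1, show Bd D \ B = {q | q ∈ dn D ∧ q.1.1.top ∈ Om A} from
    Set.ext fun q => ⟨fun k => ⟨k.1.2, by_contra fun j => k.2 ⟨k.1, j⟩⟩,
      fun k => ⟨⟨om_off hA k.2, k.1⟩, fun j => j.2 k.2⟩⟩, ← nm_cnt hm sat] at e1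
  have upB : ∀ q ∈ B, ∀ r, r ∉ LA A z → q ≤ r → r ∈ B := fun q hq r hr l =>
    ⟨⟨hr, (sat q r l).1 hq.1.2⟩, fun j => hq.2 (om_dn hA j (Ch.top_mono (Lv.ch_le l)))⟩
  have key : ∀ K ⊆ B, (∀ q ∈ K, ∀ r ∈ B, Cm q r → r ∈ K) → ∀ p ∈ K, ∀ q ∈ Bd D, q ∉ K →
      chiC K ≤ -1 := fun K hK cl p hp q hq hq' => by
    have := two_chiC hM hN hm (K := K) (fun _ k => (hK k).1.1)
      fun q hq r hr l => cl q hq r (upB q (hK hq) r hr l) (Or.inl l)
    obtain ⟨r, r1, x, x1, x2⟩ : ∃ r ∈ K, ∃ x, x ≤ r ∧ x ∉ K := by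
      by_contra hn
      push Not at hn
      exact hq' ((conn_bd hM hm hD h1 p (hK hp).1 q hq).ind (p := (· ∈ K)) hp fun a _ b hb l =>
        ⟨fun k => cl a k b (upB a (hK k) b hb.1 l) (Or.inl l), fun k => hn b k a l⟩)
    have a1 := single_le_sum (s := univ.filter (· ∈ K))
      (f := fun r => ((univ.filter fun q => q ≤ r ∧ q ∉ K).card : ℤ))
      (fun _ _ => Int.natCast_nonneg _) (mem_filter.2 ⟨mem_univ _, r1⟩)
    have a2 : 0 < (univ.filter fun q => q ≤ r ∧ q ∉ K).card := card_pos.2 ⟨x, by simp [x1, x2]⟩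
    omega
  intro p hp q hq
  by_contra hn
  have c := isCmp_cmp hp
  have a1 := key _ c.sub (fun _ a _ b k => c.clopen a b k) p (mem_cmp_self hp) q hq.1
    fun k => hn k.2
  have a2 := key (B \ Hp13.cmp B p) Set.sdiff_subset
    (fun a ha b hb k => ⟨hb, fun j => ha.2 (c.clopen j ha.1 k.symm)⟩) q ⟨hq, fun k => hn k.2⟩ p hp.1
    fun k => k.2 (mem_cmp_self hp)
  have a3 := chiC_split B (Hp13.cmp B p)
  rw [Set.inter_eq_right.2 c.sub] at a3
  omega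

end Crest.Agent.X212.Ind26
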